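import Vale.Agent.P004X.P004E.H253.K4

/-!
# P004E/H253: the sum over the primes dividing `M`, and the majorant of the coefficients `e`
-/

open Real MeasureTheory Set Filter
open scoped ENNReal Topology

namespace P004E.KT

open P004G

theorem card_le {M : ℕ} (hM : M ≠ 0) : (M.primeFactors.card : ℝ) ≤ 2 * Real.log M := by
  have h1 : 2 ^ M.primeFactors.card ≤ M := by
    calc 2 ^ M.primeFactors.card = ∏ _p ∈ M.primeFactors, 2 := by
          rw [Finset.prod_const]
      _ ≤ ∏ p ∈ M.primeFactors, p :=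
          Finset.prod_le_prod' fun p hp => (Nat.prime_of_mem_primeFactors hp).two_le
      _ ≤ M := Nat.le_of_dvd (Nat.pos_of_ne_zero hM) (Nat.prod_primeFactors_dvd M)
  have h2 : (2 : ℝ) ^ M.primeFactors.card ≤ M := by exact_mod_cast h1
  have h3 := Real.log_le_log (by positivity) h2
  rw [Real.log_pow] at h3
  have h4 : (1 : ℝ) / 2 ≤ Real.log 2 := by
    have := Real.log_two_gt_d9
    linarith
  have h5 : (0 : ℝ) ≤ M.primeFactors.card := by positivity
  nlinarith

section Vs

variable [Crv]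

/-- the sum over the primes dividing `M` -/
theorem Vs_le {L η : ℝ} {M : ℕ} (hL : 1 ≤ L) (hM : M ≠ 0) (hML : Real.log M ≤ L) (h0 : 0 ≤ η)
    (h1 : η * Real.log (3 + L) ≤ ee) :
    Vs η M ≤ 8 + 24 * AW.kk * (1 + Real.log (Real.log (3 + L) / dd / Real.log 2)) := by
  classical
  have hd0 := dd_pos
  have hd1 := dd_le
  have hkk := AW.kk_pos
  have hee : ee = dd / 50 := rfl
  have hz0 : 0 < 3 + L := by linarith
  have hlz : 1 ≤ Real.log (3 + L) := by
    have h2 : Real.log (Real.exp 1) ≤ Real.log (3 + L) := by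
      apply Real.log_le_log (Real.exp_pos 1)
      have := Real.exp_one_lt_d9
      linarith
    rwa [Real.log_exp] at h2
  have hη : 2 * η ≤ dd := by nlinarith
  set z : ℝ := (3 + L) ^ (1 / dd) with hz
  have hzpos : 0 < z := Real.rpow_pos_of_pos hz0 _
  have hlogz : Real.log z = Real.log (3 + L) / dd := by
    rw [hz, Real.log_rpow hz0]; ring
  have hz2 : 2 ≤ z := by
    have h2 : (1 : ℝ) ≤ 1 / dd := by rw [le_div_iff₀ hd0]; linarith
    calc (2 : ℝ) ≤ (3 + L) ^ (1 : ℝ) := by rw [Real.rpow_one]; linarith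
      _ ≤ z := Real.rpow_le_rpow_of_exponent_le (by linarith) h2
  have hexp : Real.exp 1 ≤ 3 := by
    have := Real.exp_one_lt_d9
    linarith
  have hzη : z ^ (2 * η) ≤ 3 := by
    rw [Real.rpow_def_of_pos hzpos, hlogz]
    refine le_trans (Real.exp_le_exp.2 ?_) hexp
    rw [div_mul_eq_mul_div, div_le_iff₀ hd0]
    nlinarith
  unfold Vs
  rw [← Finset.sum_filter_add_sum_filter_not M.primeFactors (fun p : ℕ => (p : ℝ) ≤ z)]
  have hA : ∑ p ∈ M.primeFactors.filter (fun p : ℕ => (p : ℝ) ≤ z),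
      AW.wq p * (p : ℝ) ^ (2 * η) ≤
      3 * (AW.kk * (8 * (1 + Real.log (Real.log z / Real.log 2)))) := by
    calc ∑ p ∈ M.primeFactors.filter (fun p : ℕ => (p : ℝ) ≤ z), AW.wq p * (p : ℝ) ^ (2 * η)
        ≤ ∑ p ∈ M.primeFactors.filter (fun p : ℕ => (p : ℝ) ≤ z), 3 * AW.wq p := by
          refine Finset.sum_le_sum fun p hp => ?_
          obtain ⟨hp1, hp2⟩ := Finset.mem_filter.1 hp
          have hp3 := (Nat.prime_of_mem_primeFactors hp1).pos
          have hp4 : (0 : ℝ) < p := by exact_mod_cast hp3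
          rw [mul_comm]
          have := AW.wq_nonneg p
          gcongr
          calc (p : ℝ) ^ (2 * η) ≤ z ^ (2 * η) := Real.rpow_le_rpow hp4.le hp2 (by linarith)
            _ ≤ 3 := hzη
      _ = 3 * ∑ p ∈ M.primeFactors.filter (fun p : ℕ => (p : ℝ) ≤ z), AW.wq p := by
          rw [← Finset.mul_sum]
      _ ≤ _ := by
          gcongr
          refine P004X.sum_inv_range AW.dw (fun p hp => ?_) le_rfl hz2 (fun p hp => ?_)
            (fun p hp => ?_)
          · exact Nat.prime_of_mem_primeFactors (Finset.mem_filter.1 hp).1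
          · exact_mod_cast (Nat.prime_of_mem_primeFactors (Finset.mem_filter.1 hp).1).two_le
          · exact (Finset.mem_filter.1 hp).2
  have hB : ∑ p ∈ M.primeFactors.filter (fun p : ℕ => ¬ (p : ℝ) ≤ z),
      AW.wq p * (p : ℝ) ^ (2 * η) ≤ 8 := by
    calc ∑ p ∈ M.primeFactors.filter (fun p : ℕ => ¬ (p : ℝ) ≤ z), AW.wq p * (p : ℝ) ^ (2 * η)
        ≤ ∑ p ∈ M.primeFactors.filter (fun p : ℕ => ¬ (p : ℝ) ≤ z), 4 / (3 + L) := by
          refine Finset.sum_le_sum fun p hp => ?_
          obtain ⟨hp1, hp2⟩ := Finset.mem_filter.1 hp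
          have hp3 : z ≤ p := (not_le.1 hp2).le
          have hpp := Nat.prime_of_mem_primeFactors hp1
          have hp0 : (0 : ℝ) < p := by exact_mod_cast hpp.pos
          have hp1' : (1 : ℝ) ≤ p := by exact_mod_cast hpp.one_le
          have h5 := ρv_pow hpp
          have h6 := ρv_nonneg p
          calc AW.wq p * (p : ℝ) ^ (2 * η) = ρv p ^ 2 * (p : ℝ) ^ (2 * η) := by rw [ρv_sq hpp]
            _ ≤ (2 * (p : ℝ) ^ (-dd)) ^ 2 * (p : ℝ) ^ (2 * η) := by gcongr
            _ = 4 * (p : ℝ) ^ (-dd + -dd + 2 * η) := by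
                rw [Real.rpow_add hp0, Real.rpow_add hp0]; ring
            _ ≤ 4 * (p : ℝ) ^ (-dd) := by
                gcongr 4 * ?_
                exact Real.rpow_le_rpow_of_exponent_le hp1' (by linarith)
            _ ≤ 4 * z ^ (-dd) := by
                gcongr 4 * ?_
                exact Real.rpow_le_rpow_of_nonpos hzpos hp3 (by linarith)
            _ = 4 / (3 + L) := by
                rw [hz, ← Real.rpow_mul hz0.le]
                rw [show 1 / dd * -dd = -1 by field_simp, Real.rpow_neg_one]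
                ring
      _ = (M.primeFactors.filter (fun p : ℕ => ¬ (p : ℝ) ≤ z)).card * (4 / (3 + L)) := by
          rw [Finset.sum_const, nsmul_eq_mul]
      _ ≤ (2 * L) * (4 / (3 + L)) := by
          gcongr
          refine le_trans ?_ ((card_le hM).trans (by linarith : 2 * Real.log M ≤ 2 * L))
          exact_mod_cast Finset.card_filter_le _ _
      _ ≤ 8 := by
          rw [mul_div_assoc', div_le_iff₀ hz0]
          linarith
  rw [hlogz] at hA
  linarith

/-- the exponent of the logarithm -/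
noncomputable def nV : ℕ := ⌈96 * AW.kk⌉₊

/-- the constant -/
noncomputable def CV : ℝ := Real.exp (32 + 96 * AW.kk) * (2 / dd) ^ nV

theorem one_le_CV : 1 ≤ CV := by
  have hd0 := dd_pos
  have hd1 := dd_le
  have hkk := AW.kk_pos
  have h1 : 1 ≤ Real.exp (32 + 96 * AW.kk) := Real.one_le_exp (by positivity)
  have h2 : (1 : ℝ) ≤ 2 / dd := by rw [le_div_iff₀ hd0]; linarith
  have h3 : (1 : ℝ) ≤ (2 / dd) ^ nV := one_le_pow₀ h2
  unfold CV
  nlinarith

/-- the bound for the constant -/
theorem exp_Vs_le {L η : ℝ} {M : ℕ} (hL : 1 ≤ L) (hM : M ≠ 0) (hML : Real.log M ≤ L) (h0 : 0 ≤ η)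
    (h1 : η * Real.log (3 + L) ≤ ee) :
    Real.exp (4 * Vs η M) ≤ CV * Real.log (3 + L) ^ nV := by
  have h2 := Vs_le hL hM hML h0 h1
  have hd0 := dd_pos
  have hd1 := dd_le
  have hkk := AW.kk_pos
  have hl2 : (1 : ℝ) / 2 ≤ Real.log 2 := by
    have := Real.log_two_gt_d9
    linarith
  have hl2' : Real.log 2 ≤ 1 := by
    have := Real.log_two_lt_d9
    linarith
  have hlz : 1 ≤ Real.log (3 + L) := by
    have h2 : Real.log (Real.exp 1) ≤ Real.log (3 + L) := by
      apply Real.log_le_log (Real.exp_pos 1)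
      have := Real.exp_one_lt_d9
      linarith
    rwa [Real.log_exp] at h2
  set X : ℝ := Real.log (3 + L) / dd / Real.log 2 with hX
  have hX1 : 1 ≤ X := by
    rw [hX, div_div, le_div_iff₀ (by positivity)]
    nlinarith
  have hX0 : 0 < X := by linarith
  have hX2 : X ≤ 2 / dd * Real.log (3 + L) := by
    rw [hX, div_div, div_le_iff₀ (by positivity), div_mul_eq_mul_div, div_mul_eq_mul_div,
      le_div_iff₀ hd0]
    have : 1 ≤ 2 * Real.log 2 := by linarith
    have h5 : 0 ≤ Real.log (3 + L) * dd := by positivity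
    nlinarith
  calc Real.exp (4 * Vs η M) ≤ Real.exp ((32 + 96 * AW.kk) + 96 * AW.kk * Real.log X) := by
        apply Real.exp_le_exp.2
        linarith
    _ = Real.exp (32 + 96 * AW.kk) * X ^ (96 * AW.kk) := by
        rw [Real.exp_add, Real.rpow_def_of_pos hX0, mul_comm (Real.log X)]
    _ ≤ Real.exp (32 + 96 * AW.kk) * X ^ nV := by
        gcongr
        rw [← Real.rpow_natCast]
        exact Real.rpow_le_rpow_of_exponent_le hX1 (Nat.le_ceil _)
    _ ≤ Real.exp (32 + 96 * AW.kk) * (2 / dd * Real.log (3 + L)) ^ nV := by gcongr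
    _ = _ := by rw [_root_.mul_pow]; unfold CV; ring

end Vs

/-- powers of `log` against powers of `L` -/
theorem log_pow_le (n : ℕ) {ε : ℝ} (hε : 0 < ε) : ∃ C : ℝ, 1 ≤ C ∧ ∀ L : ℝ, 1 ≤ L →
    Real.log (3 + L) ^ n ≤ C * L ^ ε := by
  have hε' : 0 < ε / (n + 1) := by positivity
  refine ⟨(1 + 4 ^ (ε / (n + 1)) / (ε / (n + 1))) ^ n, ?_, fun L hL => ?_⟩
  · apply one_le_pow₀
    have : 0 ≤ (4 : ℝ) ^ (ε / (n + 1)) / (ε / (n + 1)) := by positivity
    linarith
  · have h1 : Real.log (3 + L) ≤ (3 + L) ^ (ε / (n + 1)) / (ε / (n + 1)) :=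
      Real.log_le_rpow_div (by linarith) hε'
    have h2 : (3 + L) ^ (ε / (n + 1)) ≤ (4 : ℝ) ^ (ε / (n + 1)) * L ^ (ε / (n + 1)) := by
      rw [← Real.mul_rpow (by norm_num) (by linarith)]
      exact Real.rpow_le_rpow (by linarith) (by linarith) hε'.le
    have h3 : 0 ≤ Real.log (3 + L) := Real.log_nonneg (by linarith)
    have h4 : (0 : ℝ) < L ^ (ε / (n + 1)) := Real.rpow_pos_of_pos (by linarith) _
    calc Real.log (3 + L) ^ n
        ≤ ((1 + 4 ^ (ε / (n + 1)) / (ε / (n + 1))) * L ^ (ε / (n + 1))) ^ n := by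
          gcongr
          calc Real.log (3 + L) ≤ (3 + L) ^ (ε / (n + 1)) / (ε / (n + 1)) := h1
            _ ≤ ((4 : ℝ) ^ (ε / (n + 1)) * L ^ (ε / (n + 1))) / (ε / (n + 1)) := by gcongr
            _ = (4 : ℝ) ^ (ε / (n + 1)) / (ε / (n + 1)) * L ^ (ε / (n + 1)) := by ring
            _ ≤ _ := by
                gcongr
                linarith
      _ = (1 + 4 ^ (ε / (n + 1)) / (ε / (n + 1))) ^ n * L ^ (ε / (n + 1) * n) := by
          rw [_root_.mul_pow, ← Real.rpow_natCast (L ^ (ε / (n + 1))) n, ← Real.rpow_mul (by linarith)]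
      _ ≤ (1 + 4 ^ (ε / (n + 1)) / (ε / (n + 1))) ^ n * L ^ ε := by
          gcongr
          rw [div_mul_eq_mul_div, div_le_iff₀ (by positivity)]
          nlinarith

/-! ### comparison of multiplicative functions -/

theorem mult_le {f g : ArithmeticFunction ℝ} (hf : f.IsMultiplicative) (hg : g.IsMultiplicative)
    (h : ∀ p k : ℕ, p.Prime → |f (p ^ k)| ≤ g (p ^ k)) (n : ℕ) : |f n| ≤ g n := by
  rcases Nat.eq_zero_or_pos n with rfl | hn
  · simp
  rw [hf.multiplicative_factorization f hn.ne', hg.multiplicative_factorization g hn.ne']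
  unfold Finsupp.prod
  rw [Finset.abs_prod]
  refine Finset.prod_le_prod (fun p _ => abs_nonneg _) fun p hp => ?_
  exact h p _ (Nat.prime_of_mem_primeFactors (by rwa [Nat.support_factorization] at hp))

variable [Crv]

/-- the majorant of `e` -/
noncomputable def Em : ArithmeticFunction ℝ :=
  mk fun p k => if k = 0 then 1 else if k = 2 then AW.wq p else
    if k = 3 then AW.wq p else 0

theorem Em_mult : Em.IsMultiplicative := mk_mult _

theorem Em_pow {p : ℕ} (hp : p.Prime) (k : ℕ) : Em (p ^ k) =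
    if k = 0 then 1 else if k = 2 then AW.wq p else
      if k = 3 then AW.wq p else 0 :=
  mk_pow _ (fun p => by simp) k hp

theorem Em_nonneg (n : ℕ) : 0 ≤ Em n := by
  have h := mult_le Em_mult Em_mult (fun p k hp => by
    have := AW.wq_nonneg p
    rw [Em_pow hp, abs_of_nonneg]
    split_ifs <;> positivity) n
  exact (abs_nonneg _).trans h

theorem abs_tv_le_ρ (h : ℤ) (q : ℕ) {p : ℕ} (hp : p.Prime) : |tv h q p| ≤ ρv p := by
  have hp0 : (0 : ℝ) < p := by exact_mod_cast hp.pos
  have h1 := ca_prime_pow_le hp 1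
  simp only [pow_one] at h1
  unfold tv
  rw [abs_mul, abs_div, abs_of_pos hp0]
  calc |(ca p : ℝ)| / p * |yv h q p| ≤ ρv p * 1 := by
        have := ρv_nonneg p
        gcongr
        exact abs_yv_le h q p
    _ = ρv p := mul_one _

theorem sv_nonneg (h : ℤ) (q p : ℕ) : 0 ≤ sv h q p := by
  unfold sv
  split_ifs <;> positivity

theorem abs_sv_le_wq (h : ℤ) (q : ℕ) {p : ℕ} (hp : p.Prime) : |sv h q p| ≤ AW.wq p := by
  have hp0 : (0 : ℝ) < p := by exact_mod_cast hp.pos
  have h1 := AW.inv_le_wq hp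
  refine le_trans ?_ h1
  unfold sv
  split_ifs
  · rw [abs_zero]; positivity
  · rw [abs_div, abs_of_pos hp0, abs_pow]
    have := abs_yv_le h q p
    gcongr
    exact pow_le_one₀ (abs_nonneg _) this

theorem abs_ev_le (h : ℤ) (q n : ℕ) : |ev h q n| ≤ Em n := by
  refine mult_le (e_mult h q) Em_mult (fun p k hp => ?_) n
  have hw := AW.wq_nonneg p
  have ht := abs_tv_le_ρ h q hp
  have hsv := abs_sv_le_wq h q hp
  have hsv0 := sv_nonneg h q p
  have hρ0 := ρv_nonneg p
  have hρ1 := ρv_le_one hp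
  have ht2 : tv h q p ^ 2 ≤ AW.wq p := by
    rw [← sq_abs, ← ρv_sq hp]
    gcongr
  rw [Em_pow hp, ev, mul_pow _ _ k hp]
  rcases k with _ | _ | _ | _ | k
  · simp [(bv_mult h q).map_one, (αv_mult h q).map_one]
  · rw [Finset.sum_range_succ, Finset.sum_range_succ, Finset.sum_range_zero, bv_pow h q hp,
      bv_pow h q hp, αv_pow h q hp, αv_pow h q hp]
    simp
  · rw [Finset.sum_range_succ, Finset.sum_range_succ, Finset.sum_range_succ, Finset.sum_range_zero,
      bv_pow h q hp, bv_pow h q hp, bv_pow h q hp, αv_pow h q hp, αv_pow h q hp, αv_pow h q hp]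
    simp
    rw [abs_of_nonneg hsv0] at hsv
    rw [abs_le]
    constructor
    · nlinarith [sq_nonneg (tv h q p)]
    · nlinarith [sq_nonneg (tv h q p)]
  · rw [Finset.sum_range_succ, Finset.sum_range_succ, Finset.sum_range_succ, Finset.sum_range_succ,
      Finset.sum_range_zero, bv_pow h q hp, bv_pow h q hp, bv_pow h q hp, bv_pow h q hp,
      αv_pow h q hp, αv_pow h q hp, αv_pow h q hp, αv_pow h q hp]
    simp
    calc |tv h q p| * |sv h q p| ≤ 1 * AW.wq p := by
          gcongr
          exact ht.trans hρ1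
      _ = AW.wq p := one_mul _
  · rw [if_neg (by omega), if_neg (by omega), if_neg (by omega), Finset.sum_eq_zero, abs_zero]
    intro i hi
    have hi' := Finset.mem_range.1 hi
    by_cases h1 : i ≤ 1
    · have h2 : αv h q (p ^ (k + 1 + 1 + 1 + 1 - i)) = 0 := by
        rw [αv_pow h q hp, if_neg (by omega), if_neg (by omega), if_neg (by omega)]
      rw [h2, mul_zero]
    · have h2 : bv h q (p ^ i) = 0 := by
        rw [bv_pow h q hp, if_neg (by omega), if_neg (by omega)]
      rw [h2, zero_mul]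

/-- the exponent in the sum of the majorant -/
noncomputable def nE : ℕ := ⌈16 * AW.kk⌉₊

/-- the sum of the majorant -/
theorem Em_sum_le : ∃ C : ℝ, 1 ≤ C ∧ ∀ x : ℝ, 0 ≤ x →
    PS Em x ≤ C * (1 + Real.log (1 + x)) ^ nE := by
  classical
  have hkk := AW.kk_pos
  refine ⟨Real.exp (16 * AW.kk) * 4 ^ nE, ?_, fun x hx => ?_⟩
  · have h2 := Real.one_le_exp (show 0 ≤ 16 * AW.kk by positivity)
    have h3 : (1 : ℝ) ≤ 4 ^ nE := one_le_pow₀ (by norm_num)
    nlinarith
  set N := ⌊x⌋₊ + 1 with hN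
  have h1 := sum_le_prod (f := fun n => Em n) Em_nonneg (by simp) Em_mult.map_one
    (fun {m n} hmn => Em_mult.map_mul_of_coprime hmn)
    (fun p => 1 + 2 * AW.wq p) (fun p hp K => by
      have e1 : ∑ k ∈ Finset.range K, Em (p ^ k) ≤ ∑ k ∈ Finset.range (K + 4), Em (p ^ k) :=
        Finset.sum_le_sum_of_subset_of_nonneg (Finset.range_mono (by omega))
          fun i _ _ => Em_nonneg _
      refine e1.trans (le_of_eq ?_)
      rw [Finset.sum_range_succ', Finset.sum_range_succ', Finset.sum_range_succ',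
        Finset.sum_range_succ', Finset.sum_eq_zero, Em_pow hp, Em_pow hp, Em_pow hp, Em_pow hp]
      · simp
        ring
      · intro k _
        rw [Em_pow hp, if_neg (by omega), if_neg (by omega), if_neg (by omega)]) N
  refine h1.trans ?_
  have h2 : ∀ p ∈ N.primesBelow, 1 + 2 * AW.wq p ≤ Real.exp (2 * AW.wq p) := by
    intro p hp
    have := Real.add_one_le_exp (2 * AW.wq p)
    linarith
  refine (Finset.prod_le_prod (fun p hp => by
    have := AW.wq_nonneg p
    positivity) h2).trans ?_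
  rw [← Real.exp_sum, ← Finset.mul_sum]
  have hxz : (2 : ℝ) ≤ 2 + x := by linarith
  have h4 : ∑ p ∈ N.primesBelow, AW.wq p ≤
      AW.kk * (8 * (1 + Real.log (Real.log (2 + x) / Real.log 2))) := by
    refine P004X.sum_inv_range AW.dw (fun p hp => Nat.prime_of_mem_primesBelow hp) le_rfl hxz
      (fun p hp => ?_) (fun p hp => ?_)
    · exact_mod_cast (Nat.prime_of_mem_primesBelow hp).two_le
    · have h5 := Nat.lt_of_mem_primesBelow hp
      have h6 : p ≤ ⌊x⌋₊ := by omega
      have h7 : (p : ℝ) ≤ x := (Nat.le_floor_iff hx).1 h6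
      linarith
  have hl2 : (1 : ℝ) / 2 ≤ Real.log 2 := by
    have := Real.log_two_gt_d9
    linarith
  have hl3 : Real.log 2 ≤ 1 := by
    have := Real.log_two_lt_d9
    linarith
  have h8 : 0 < Real.log (2 + x) := Real.log_pos (by linarith)
  have h9 : 0 < Real.log (2 + x) / Real.log 2 := by positivity
  have h91 : 1 ≤ Real.log (2 + x) / Real.log 2 := by
    rw [le_div_iff₀ (by linarith), one_mul]
    exact Real.log_le_log (by norm_num) hxz
  have h10 : Real.log (2 + x) / Real.log 2 ≤ 4 * (1 + Real.log (1 + x)) := by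
    rw [div_le_iff₀ (by linarith)]
    have h11 : Real.log (2 + x) ≤ Real.log (2 * (1 + x)) := by
      apply Real.log_le_log (by linarith)
      linarith
    rw [Real.log_mul (by norm_num) (by linarith)] at h11
    have h12 : 0 ≤ Real.log (1 + x) := Real.log_nonneg (by linarith)
    nlinarith
  calc Real.exp (2 * ∑ p ∈ N.primesBelow, AW.wq p)
      ≤ Real.exp (16 * AW.kk + 16 * AW.kk * Real.log (Real.log (2 + x) / Real.log 2)) := by
        apply Real.exp_le_exp.2
        linarith
    _ = Real.exp (16 * AW.kk) * (Real.log (2 + x) / Real.log 2) ^ (16 * AW.kk) := by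
        rw [Real.exp_add, Real.rpow_def_of_pos h9, mul_comm (Real.log (_ / _))]
    _ ≤ Real.exp (16 * AW.kk) * (Real.log (2 + x) / Real.log 2) ^ nE := by
        gcongr
        rw [← Real.rpow_natCast]
        exact Real.rpow_le_rpow_of_exponent_le h91 (Nat.le_ceil _)
    _ ≤ Real.exp (16 * AW.kk) * (4 * (1 + Real.log (1 + x))) ^ nE := by gcongr
    _ = _ := by rw [_root_.mul_pow]; ring

end P004E.KT
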