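import Vale.Agent.P004X.P004E.H253.K7

/-!
# P004E/H253: `StTS`, `StST`
-/

open Real MeasureTheory Set Filter
open scoped ENNReal Topology

namespace P004E.KT

open P004G

theorem log_ge_one {L : ℝ} (hL : 1 ≤ L) : 1 ≤ Real.log (3 + L) := by
  have h2 : Real.log (Real.exp 1) ≤ Real.log (3 + L) := by
    apply Real.log_le_log (Real.exp_pos 1)
    have := Real.exp_one_lt_d9
    linarith
  rwa [Real.log_exp] at h2

theorem kap_bd {k : ℝ → ℝ} (hk : Kn 0 k) :
    ∃ M : ℝ, ∀ t, 0 < t → |kap k t| ≤ M * Real.exp (-t) :=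
  ⟨1, fun t ht => by rw [one_mul]; exact abs_kap_le hk ht⟩

variable [Crv]

omit [Crv] in
theorem PS_one_eq {f : ArithmeticFunction ℝ} (hf : f 1 = 1) : PS f 1 = 1 := by
  unfold PS
  rw [Nat.floor_one, Finset.sum_range_succ, Finset.sum_range_succ, Finset.sum_range_zero, hf]
  simp

/-- the identity used for `StTS` -/
theorem ident_TS (hH : Hlam) (h : ℤ) (q : ℕ) (D : ℝ) {k : ℝ → ℝ} (hk : Kn 1 k) {u : ℝ}
    (hu : 0 < u) : tr (av h q) (kap k) u = D * tr (bv h q) (kap k) u +
      ∫ x in Ioi (1 : ℝ), PS (κv h q + dl 1 (-D)) x / x * tr (bv h q) (kap (deriv k)) (x * u) := by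
  have hKK := KK_kap hk
  have hκ' : Pb (κv h q + dl 1 (-D)) := (Pb_κv hH h q).add (Pb_dl 1 _)
  have h1 := tr_abel hκ' (Pb_bv h q) hKK hu
  have h2 : (κv h q + dl 1 (-D)) * bv h q = av h q + dl 1 (-D) * bv h q := by
    rw [add_mul, κ_mul_b]
  have hdb : Pb (dl 1 (-D) * bv h q) := by
    refine Pb.mul ⟨|D|, fun n => ?_⟩ ⟨1, bv_lin h q⟩
    rw [dl_apply]
    split_ifs with h3
    · rw [h3.1, abs_neg]
      simp
    · rw [abs_zero]; positivity
  rw [h2, tr_add (Pb_av h q) hdb hKK.bd hu, tr_dl (Pb_bv h q) hKK.bd hu one_ne_zero] at h1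
  have e1 : ∫ x in Ioi (1 : ℝ), PS (κv h q + dl 1 (-D)) x / x *
      tr (bv h q) (kap (deriv k)) (x * u) = ∫ x in Ioi (1 : ℝ), PS (κv h q + dl 1 (-D)) x *
      tr (bv h q) (kap (deriv k)) (x * u) / x := by
    refine setIntegral_congr_fun measurableSet_Ioi fun x hx => ?_
    ring
  rw [e1, ← h1, Nat.cast_one, one_mul]
  ring

/-! ### `StST` -/

/-- the truncation of `e` -/
noncomputable def er (h : ℤ) (q N : ℕ) : ArithmeticFunction ℝ :=
  ⟨fun n => if n < N then ev h q n else 0, by simp⟩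

theorem er_apply (h : ℤ) (q N n : ℕ) : er h q N n = if n < N then ev h q n else 0 := rfl

theorem abs_er_le (h : ℤ) (q N n : ℕ) : |er h q N n| ≤ Em n := by
  rw [er_apply]
  split_ifs
  · exact abs_ev_le h q n
  · rw [abs_zero]; exact Em_nonneg n

theorem er_lin (h : ℤ) (q N : ℕ) : ∃ C : ℝ, ∀ n : ℕ, |er h q N n| ≤ C * n := by
  refine ⟨∑ n ∈ Finset.range N, |ev h q n|, fun n => ?_⟩
  rw [er_apply]
  split_ifs with h1
  · rcases Nat.eq_zero_or_pos n with rfl | hn
    · simp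
    have h2 : |ev h q n| ≤ ∑ n ∈ Finset.range N, |ev h q n| :=
      Finset.single_le_sum (f := fun n => |ev h q n|) (fun i _ => abs_nonneg _)
        (Finset.mem_range.2 h1)
    have h3 : (1 : ℝ) ≤ n := by exact_mod_cast hn
    have h4 : 0 ≤ ∑ n ∈ Finset.range N, |ev h q n| := Finset.sum_nonneg fun i _ => abs_nonneg _
    nlinarith
  · rw [abs_zero]
    have h4 : 0 ≤ ∑ n ∈ Finset.range N, |ev h q n| := Finset.sum_nonneg fun i _ => abs_nonneg _
    positivity

theorem κ_sq (hH : Hlam) (h : ℤ) (q n : ℕ) : |κv h q n| ≤ 1 * (n : ℝ) ^ 2 := by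
  rw [κv, ArithmeticFunction.mul_apply]
  refine (Finset.abs_sum_le_sum_abs _ _).trans ?_
  calc ∑ p ∈ n.divisorsAntidiagonal, |av h q p.1 * βv h q p.2|
      ≤ ∑ p ∈ n.divisorsAntidiagonal, (n : ℝ) := by
        refine Finset.sum_le_sum fun p hp => ?_
        have h3 := (Nat.mem_divisorsAntidiagonal.1 hp).1
        rw [abs_mul, ← h3]
        push_cast
        calc |av h q p.1| * |βv h q p.2| ≤ (1 * (p.1 : ℝ)) * (1 * (p.2 : ℝ)) := by
              gcongr
              · exact av_lin h q _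
              · exact βv_lin hH h q _
          _ = _ := by ring
    _ = (n.divisors.card : ℝ) * (n : ℝ) := by
        rw [Nat.sum_divisorsAntidiagonal (fun _ _ => (n : ℝ)), Finset.sum_const, nsmul_eq_mul]
    _ ≤ (n : ℝ) * (n : ℝ) := by
        gcongr
        exact_mod_cast Nat.card_divisors_le_self n
    _ = 1 * (n : ℝ) ^ 2 := by ring

/-- the convolution `c = e_N * κ` -/
noncomputable def cc (h : ℤ) (q N : ℕ) : ArithmeticFunction ℝ := er h q N * κv h q

theorem Pb_cc (hH : Hlam) (h : ℤ) (q N : ℕ) : Pb (cc h q N) := by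
  obtain ⟨C, hC⟩ := er_lin h q N
  have hC0 : 0 ≤ C := by
    have := (abs_nonneg _).trans (hC 1)
    simpa using this
  refine ⟨C, fun n => ?_⟩
  rw [cc, ArithmeticFunction.mul_apply]
  refine (Finset.abs_sum_le_sum_abs _ _).trans ?_
  rcases Nat.eq_zero_or_pos n with rfl | hn
  · simp
  calc ∑ p ∈ n.divisorsAntidiagonal, |er h q N p.1 * κv h q p.2|
      ≤ ∑ p ∈ n.divisorsAntidiagonal, C * (n : ℝ) ^ 2 := by
        refine Finset.sum_le_sum fun p hp => ?_
        have h3 := (Nat.mem_divisorsAntidiagonal.1 hp).1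
        have h5 : p.1 ≠ 0 := by
          rintro h6
          rw [h6, zero_mul] at h3
          omega
        have h4 : (1 : ℝ) ≤ p.1 := by exact_mod_cast Nat.one_le_iff_ne_zero.2 h5
        rw [abs_mul, ← h3]
        push_cast
        calc |er h q N p.1| * |κv h q p.2| ≤ (C * (p.1 : ℝ)) * (1 * (p.2 : ℝ) ^ 2) := by
              gcongr
              · exact hC _
              · exact κ_sq hH h q _
          _ = C * ((p.1 : ℝ) ^ 1 * (p.2 : ℝ) ^ 2) := by ring
          _ ≤ C * ((p.1 : ℝ) ^ 2 * (p.2 : ℝ) ^ 2) := by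
              gcongr
              · norm_num
          _ = _ := by ring
    _ = (n.divisors.card : ℝ) * (C * (n : ℝ) ^ 2) := by
        rw [Nat.sum_divisorsAntidiagonal (fun _ _ => C * (n : ℝ) ^ 2), Finset.sum_const,
          nsmul_eq_mul]
    _ ≤ (n : ℝ) * (C * (n : ℝ) ^ 2) := by
        gcongr
        exact_mod_cast Nat.card_divisors_le_self n
    _ = C * (n : ℝ) ^ 3 := by ring

/-- below `N` the convolution is the unit -/
theorem PS_cc_one {h : ℤ} {q N : ℕ} {x : ℝ} (hx : 1 ≤ x) (hxN : x < N) : PS (cc h q N) x = 1 := by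
  have h1 : PS (cc h q N) x = PS (1 : ArithmeticFunction ℝ) x := by
    unfold PS
    refine Finset.sum_congr rfl fun n hn => ?_
    have h2 : n < N := by
      have h3 := Finset.mem_range.1 hn
      have h4 : (n : ℝ) ≤ x := by
        have : n ≤ ⌊x⌋₊ := by omega
        exact (Nat.le_floor_iff (by linarith)).1 this
      exact_mod_cast lt_of_le_of_lt h4 hxN
    rw [← e_mul_κ h q, cc, ArithmeticFunction.mul_apply, ArithmeticFunction.mul_apply]
    refine Finset.sum_congr rfl fun p hp => ?_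
    have h3 := Nat.mem_divisorsAntidiagonal.1 hp
    have h4 : p.1 ≤ n := Nat.le_of_dvd (Nat.pos_of_ne_zero h3.2) ⟨p.2, h3.1.symm⟩
    rw [er_apply, if_pos (lt_of_le_of_lt h4 h2)]
  rw [h1]
  unfold PS
  rw [Finset.sum_eq_single 1]
  · simp
  · intro n _ hn
    exact ArithmeticFunction.one_apply_ne hn
  · intro h2
    exfalso
    apply h2
    rw [Finset.mem_range]
    have : 1 ≤ ⌊x⌋₊ := Nat.le_floor (by exact_mod_cast hx)
    omega

/-- the identity used for `StST` -/
theorem ident_ST (hH : Hlam) (h : ℤ) (q : ℕ) {N : ℕ} (hN : N ≠ 0) (D : ℝ) {k : ℝ → ℝ}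
    (hk : Kn 1 k) {u : ℝ} (hu : 0 < u) : tr (bv h q) (kap k) u =
      ∑ r ∈ Finset.range N, ev h q r * tr (av h q) (kap k) (r * u) +
      (1 - D) * tr (bv h q) (kap k) (N * u) +
      ∫ x in Ioi (1 : ℝ), -(PS (cc h q N + (dl 1 (-1) + dl N (1 - D))) x / x) *
        tr (bv h q) (kap (deriv k)) (x * u) := by
  have hKK := KK_kap hk
  have hdl : ∀ (m : ℕ) (c : ℝ), Pb (dl m c * bv h q) := by
    intro m c
    refine Pb.mul ⟨|c|, fun n => ?_⟩ ⟨1, bv_lin h q⟩
    rw [dl_apply]
    split_ifs with h3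
    · have : (1 : ℝ) ≤ n := by exact_mod_cast Nat.one_le_iff_ne_zero.2 h3.2
      nlinarith [abs_nonneg c]
    · rw [abs_zero]; positivity
  have hc' : Pb (cc h q N + (dl 1 (-1) + dl N (1 - D))) :=
    (Pb_cc hH h q N).add ((Pb_dl 1 _).add (Pb_dl N _))
  have h1 := tr_abel hc' (Pb_bv h q) hKK hu
  have her : Pb (er h q N * av h q) := Pb.mul (er_lin h q N) ⟨1, av_lin h q⟩
  have h2 : (cc h q N + (dl 1 (-1) + dl N (1 - D))) * bv h q =
      er h q N * av h q + (dl 1 (-1) * bv h q + dl N (1 - D) * bv h q) := by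
    rw [add_mul, add_mul, cc, mul_assoc, κ_mul_b]
  rw [h2, tr_add her ((hdl 1 _).add (hdl N _)) hKK.bd hu, tr_add (hdl 1 _) (hdl N _) hKK.bd hu,
    tr_dl (Pb_bv h q) hKK.bd hu one_ne_zero, tr_dl (Pb_bv h q) hKK.bd hu hN,
    tr_mul (Pb.of_lin (er_lin h q N)) (Pb_av h q) hKK.bd hu] at h1
  have e0 : ∑' r : ℕ, er h q N r * tr (av h q) (kap k) (r * u) =
      ∑ r ∈ Finset.range N, ev h q r * tr (av h q) (kap k) (r * u) := by
    rw [tsum_eq_sum (s := Finset.range N)]
    · refine Finset.sum_congr rfl fun r hr => ?_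
      rw [er_apply, if_pos (Finset.mem_range.1 hr)]
    · intro r hr
      rw [er_apply, if_neg (fun h3 => hr (Finset.mem_range.2 h3)), zero_mul]
  have e1 : ∫ x in Ioi (1 : ℝ), -(PS (cc h q N + (dl 1 (-1) + dl N (1 - D))) x / x) *
      tr (bv h q) (kap (deriv k)) (x * u) =
      -∫ x in Ioi (1 : ℝ), PS (cc h q N + (dl 1 (-1) + dl N (1 - D))) x *
      tr (bv h q) (kap (deriv k)) (x * u) / x := by
    rw [← integral_neg]
    refine setIntegral_congr_fun measurableSet_Ioi fun x hx => ?_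
    ring
  rw [e1, ← h1, e0, Nat.cast_one, one_mul]
  ring

/-- the corrected convolution vanishes below `N` -/
theorem PSlow {h : ℤ} {q N : ℕ} (hN : 2 ≤ N) (D : ℝ) {x : ℝ} (hx : 1 ≤ x) (hxN : x < N) :
    PS (cc h q N + (dl 1 (-1) + dl N (1 - D))) x = 0 := by
  rw [PS_add, PS_add, PS_dl one_ne_zero _ (by linarith), PS_dl (by omega) _ (by linarith),
    Nat.cast_one, if_pos hx, if_neg (not_le.2 hxN), PS_cc_one hx hxN]
  ring

/-- the finite part of the identity, over `1 ≤ r ≤ N` -/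
theorem ident_ST' (hH : Hlam) (h : ℤ) (q : ℕ) {N : ℕ} (hN : 2 ≤ N) (D : ℝ) {k : ℝ → ℝ}
    (hk : Kn 1 k) {u : ℝ} (hu : 0 < u) : tr (bv h q) (kap k) u =
      ∑ r ∈ Finset.Icc 1 N, (if r < N then ev h q r else 1 - D) *
        (if r < N then tr (av h q) (kap k) (r * u) else tr (bv h q) (kap k) (N * u)) +
      ∫ x in Ioi (1 : ℝ), -(PS (cc h q N + (dl 1 (-1) + dl N (1 - D))) x / x) *
        tr (bv h q) (kap (deriv k)) (x * u) := by
  have hN0 : N ≠ 0 := by omega
  rw [ident_ST hH h q hN0 D hk hu]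
  congr 1
  have h2 : ∑ r ∈ Finset.Icc 1 N, (if r < N then ev h q r else 1 - D) *
      (if r < N then tr (av h q) (kap k) (r * u) else tr (bv h q) (kap k) (N * u)) =
      ∑ r ∈ Finset.range (N + 1), (if r < N then ev h q r else 1 - D) *
      (if r < N then tr (av h q) (kap k) (r * u) else tr (bv h q) (kap k) (N * u)) := by
    refine Finset.sum_subset (fun r hr => ?_) fun r hr h3 => ?_
    · rw [Finset.mem_Icc] at hr
      rw [Finset.mem_range]
      omega
    · rw [Finset.mem_Icc] at h3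
      rw [Finset.mem_range] at hr
      have h4 : r = 0 := by omega
      rw [h4, if_pos (by omega)]
      simp
  rw [h2, Finset.sum_range_succ, if_neg (lt_irrefl N), if_neg (lt_irrefl N)]
  congr 1
  refine Finset.sum_congr rfl fun r hr => ?_
  rw [if_pos (Finset.mem_range.1 hr), if_pos (Finset.mem_range.1 hr)]

theorem sumE_le {N : ℕ} {M Es : ℝ} (hEsv : Es = ∑ r ∈ Finset.range (N + 1), Em r) (hM : 0 ≤ M) :
    0 ≤ ∑ r ∈ Finset.Icc 1 N, (if r < N then Em r else 2 * M) ∧
    ∑ r ∈ Finset.Icc 1 N, (if r < N then Em r else 2 * M) ≤ Es + 2 * M := by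
  have h0 : ∀ r : ℕ, 0 ≤ (if r < N then Em r else 2 * M) := fun r => by
    split_ifs
    · exact Em_nonneg r
    · positivity
  refine ⟨Finset.sum_nonneg fun r _ => h0 r, ?_⟩
  have h1 : ∑ r ∈ Finset.Icc 1 N, (if r < N then Em r else 2 * M) ≤
      ∑ r ∈ Finset.range (N + 1), (if r < N then Em r else 2 * M) := by
    refine Finset.sum_le_sum_of_subset_of_nonneg (fun r hr => ?_) fun r _ _ => h0 r
    rw [Finset.mem_Icc] at hr
    rw [Finset.mem_range]
    omega
  refine h1.trans ?_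
  rw [Finset.sum_range_succ, if_neg (lt_irrefl N)]
  have h2 : ∑ r ∈ Finset.range N, (if r < N then Em r else 2 * M) ≤ Es := by
    calc ∑ r ∈ Finset.range N, (if r < N then Em r else 2 * M)
        = ∑ r ∈ Finset.range N, Em r :=
          Finset.sum_congr rfl fun r hr => by rw [if_pos (Finset.mem_range.1 hr)]
      _ ≤ ∑ r ∈ Finset.range (N + 1), Em r :=
          Finset.sum_le_sum_of_subset_of_nonneg (Finset.range_mono (by omega))
            fun i _ _ => Em_nonneg i
      _ = Es := hEsv.symm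
  linarith

end P004E.KT
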